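import Vale.Agent.P024.MathlibUsed

/-!
Solvably closed fields.
-/

namespace Vale.Agent.P024

/-- A field `E` is solvably closed if it has no nontrivial abelian algebraic extension: every
intermediate field `M` of an algebraic closure of `E` which is Galois over `E` with commutative
Galois group is equal to `E`. -/
def SolvablyClosed (E : Type*) [Field E] : Prop :=
  ∀ M : IntermediateField E (AlgebraicClosure E), IsGalois E M →
    (∀ σ τ : M ≃ₐ[E] M, σ * τ = τ * σ) → M = ⊥

end Vale.Agent.P024
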