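import Mathlib.Algebra.AffineMonoid.Basic
import Mathlib.Algebra.GroupWithZero.Submonoid.CancelMulZero
import Mathlib.Algebra.Lie.OfAssociative
import Mathlib.Algebra.Order.Ring.Star
import Mathlib.Algebra.Order.Star.Real
import Mathlib.Analysis.CStarAlgebra.Classes
import Mathlib.Computability.Reduce
import Mathlib.Data.Int.Star
import Mathlib.FieldTheory.Galois.Profinite
import Mathlib.FieldTheory.Minpoly.IsConjRoot
import Mathlib.GroupTheory.FiniteAbelian.Basic
import Mathlib.GroupTheory.Transfer
import Mathlib.NumberTheory.Basic
import Mathlib.NumberTheory.Cyclotomic.CyclotomicCharacter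
import Mathlib.NumberTheory.Multiplicity
import Mathlib.NumberTheory.NumberField.Cyclotomic.Basic
import Mathlib.NumberTheory.NumberField.DedekindZeta
import Mathlib.NumberTheory.RamificationInertia.Basic
import Mathlib.Order.CompletePartialOrder
import Mathlib.RingTheory.DedekindDomain.FiniteAdeleRing
import Mathlib.RingTheory.Henselian
import Mathlib.RingTheory.Invariant.Profinite
import Mathlib.RingTheory.RegularLocalRing.Defs
import Mathlib.RingTheory.RootsOfUnity.AlgebraicallyClosed
import Mathlib.RingTheory.RootsOfUnity.Lemmas
import Mathlib.RingTheory.SimpleRing.Principal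
import Mathlib.RingTheory.Valuation.LocalSubring
import Mathlib.Tactic
import Mathlib.Topology.Connected.Separation
import Mathlib.Topology.Order.LowerUpperTopology

/-! The part of Mathlib that the development of this folder uses. -/
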