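import Mathlib
import Vale.Agent.P024.SolvClosed

/-!
Solvably closed fields of characteristic zero contain all roots of unity and all roots.
-/

namespace Vale.Agent.P024

open IntermediateField

theorem SolvablyClosed.mem_of_conj {E : Type*} [Field E] [CharZero E] (hE : SolvablyClosed E)
    (α : AlgebraicClosure E)
    (hconj : ∀ σ : AlgebraicClosure E →ₐ[E] AlgebraicClosure E, σ α ∈ E⟮α⟯)
    (hcomm : ∀ σ τ : E⟮α⟯ ≃ₐ[E] E⟮α⟯, σ (τ (AdjoinSimple.gen E α)) =
      τ (σ (AdjoinSimple.gen E α))) : ∃ z : E, algebraMap E (AlgebraicClosure E) z = α := by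
  have hnormal : Normal E E⟮α⟯ := by
    rw [normal_iff_forall_map_le]
    intro σ
    rw [adjoin_map, adjoin_le_iff, Set.image_singleton, Set.singleton_subset_iff]
    exact hconj σ
  have hsep : Algebra.IsSeparable E E⟮α⟯ := inferInstance
  have hgal : IsGalois E E⟮α⟯ := { to_normal := hnormal, to_isSeparable := hsep }
  have hbot : E⟮α⟯ = ⊥ := by
    refine hE _ hgal (fun σ τ => ?_)
    apply AlgEquiv.coe_toAlgHom_injective
    refine adjoin_algHom_ext E ?_
    intro x hx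
    rw [Set.mem_singleton_iff] at hx
    subst hx
    exact hcomm σ τ
  have h : α ∈ E⟮α⟯ := mem_adjoin_simple_self E α
  rw [hbot, mem_bot] at h
  exact h

/-- (SC1) -/
theorem SolvablyClosed.exists_primitiveRoot {E : Type*} [Field E] [CharZero E]
    (hE : SolvablyClosed E) (n : ℕ) (hn : 0 < n) : ∃ z : E, IsPrimitiveRoot z n := by
  have hnz : NeZero n := ⟨hn.ne'⟩
  have hcz : CharZero (AlgebraicClosure E) :=
    charZero_of_injective_algebraMap (algebraMap E (AlgebraicClosure E)).injective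
  have hne : NeZero (n : AlgebraicClosure E) := ⟨by exact_mod_cast hn.ne'⟩
  obtain ⟨ζ, hζ⟩ := HasEnoughRootsOfUnity.exists_primitiveRoot (AlgebraicClosure E) n
  obtain ⟨z, hz⟩ := hE.mem_of_conj ζ (by
    intro σ
    have h1 : (σ ζ) ^ n = 1 := by rw [← map_pow, hζ.pow_eq_one, map_one]
    obtain ⟨k, _, hk⟩ := hζ.eq_pow_of_pow_eq_one h1
    rw [← hk]
    exact pow_mem (mem_adjoin_simple_self E ζ) k) (by
    have hgen : IsPrimitiveRoot (AdjoinSimple.gen E ζ) n := by
      refine IsPrimitiveRoot.of_map_of_injective (f := algebraMap E⟮ζ⟯ (AlgebraicClosure E)) ?_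
        (algebraMap E⟮ζ⟯ (AlgebraicClosure E)).injective
      rw [AdjoinSimple.algebraMap_gen]
      exact hζ
    have hpow : ∀ σ : E⟮ζ⟯ ≃ₐ[E] E⟮ζ⟯, ∃ k : ℕ, σ (AdjoinSimple.gen E ζ) =
        (AdjoinSimple.gen E ζ) ^ k := by
      intro σ
      have h1 : (σ (AdjoinSimple.gen E ζ)) ^ n = 1 := by
        rw [← map_pow, hgen.pow_eq_one, map_one]
      obtain ⟨k, _, hk⟩ := hgen.eq_pow_of_pow_eq_one h1
      exact ⟨k, hk.symm⟩
    intro σ τ
    obtain ⟨k, hk⟩ := hpow σ
    obtain ⟨j, hj⟩ := hpow τ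
    rw [hj, map_pow, hk, map_pow, hj, ← pow_mul, ← pow_mul, mul_comm])
  refine ⟨z, ?_⟩
  refine IsPrimitiveRoot.of_map_of_injective (f := algebraMap E (AlgebraicClosure E)) ?_
    (algebraMap E (AlgebraicClosure E)).injective
  rw [hz]
  exact hζ

/-- (SC2) -/
theorem SolvablyClosed.exists_root {E : Type*} [Field E] [CharZero E]
    (hE : SolvablyClosed E) (n : ℕ) (hn : 0 < n) (x : E) : ∃ y : E, y ^ n = x := by
  have hnz : NeZero n := ⟨hn.ne'⟩
  by_cases hx : x = 0
  · exact ⟨0, by rw [hx, zero_pow hn.ne']⟩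
  obtain ⟨ζ, hζ⟩ := hE.exists_primitiveRoot n hn
  obtain ⟨α, hα⟩ := IsAlgClosed.exists_pow_nat_eq (algebraMap E (AlgebraicClosure E) x) hn
  have hα0 : α ≠ 0 := by
    rintro rfl
    rw [zero_pow hn.ne'] at hα
    exact hx ((algebraMap E (AlgebraicClosure E)).injective (by rw [← hα, map_zero]))
  have hζΩ := hζ.map_of_injective (algebraMap E (AlgebraicClosure E)).injective
  obtain ⟨y, hy⟩ := hE.mem_of_conj α (by
    intro σ
    have h1 : (σ α / α) ^ n = 1 := by
      rw [div_pow, ← map_pow, hα, AlgHom.commutes, ← hα, div_self (pow_ne_zero _ hα0)]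
    obtain ⟨k, _, hk⟩ := hζΩ.eq_pow_of_pow_eq_one h1
    have h2 : σ α = algebraMap E _ ζ ^ k * α := by rw [hk, div_mul_cancel₀ _ hα0]
    rw [h2, ← map_pow]
    exact mul_mem (E⟮α⟯.algebraMap_mem _) (mem_adjoin_simple_self E α)) (by
    have hgenn : (AdjoinSimple.gen E α) ^ n = algebraMap E E⟮α⟯ x := by
      apply (algebraMap E⟮α⟯ (AlgebraicClosure E)).injective
      rw [map_pow, AdjoinSimple.algebraMap_gen, hα, ← IsScalarTower.algebraMap_apply]
    have hgen0 : (AdjoinSimple.gen E α) ≠ 0 := by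
      intro h
      apply hα0
      rw [← AdjoinSimple.algebraMap_gen E α, h, map_zero]
    have hζM := hζ.map_of_injective (algebraMap E E⟮α⟯).injective
    have hpow : ∀ σ : E⟮α⟯ ≃ₐ[E] E⟮α⟯, ∃ k : ℕ, σ (AdjoinSimple.gen E α) =
        algebraMap E E⟮α⟯ (ζ ^ k) * (AdjoinSimple.gen E α) := by
      intro σ
      have h1 : (σ (AdjoinSimple.gen E α) / (AdjoinSimple.gen E α)) ^ n = 1 := by
        rw [div_pow, ← map_pow, hgenn, AlgEquiv.commutes, ← hgenn,
          div_self (pow_ne_zero _ hgen0)]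
      obtain ⟨k, _, hk⟩ := hζM.eq_pow_of_pow_eq_one h1
      refine ⟨k, ?_⟩
      rw [map_pow, hk, div_mul_cancel₀ _ hgen0]
    intro σ τ
    obtain ⟨k, hk⟩ := hpow σ
    obtain ⟨j, hj⟩ := hpow τ
    rw [hj, map_mul, AlgEquiv.commutes, hk, map_mul, AlgEquiv.commutes, hj]
    ring)
  refine ⟨y, (algebraMap E (AlgebraicClosure E)).injective ?_⟩
  rw [map_pow, hy, hα]

end Vale.Agent.P024
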